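import Mathlib

/-!
# Neighbourhoods, weights and the rank function (definitions)
-/

namespace Vale.Agent.P038.H434

open Finset

variable {V : Type*} [Fintype V] [DecidableEq V]

/-- Closed neighbourhood of a set. -/
def cl (N : V → Finset V) (S : Finset V) : Finset V := S.biUnion N

/-- Weight of a set. -/
noncomputable def W (w : V → ℝ) (S : Finset V) : ℝ := ∑ v ∈ S, w v

/-- The rank function. -/
noncomputable def rho (N : V → Finset V) (w : V → ℝ) (L S : Finset V) : ℝ :=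
  L.powerset.inf' ⟨∅, Finset.empty_mem_powerset L⟩ fun T => W w (L \ T) + W w (cl N T ∩ S)

omit [Fintype V] in
theorem mem_cl {N : V → Finset V} {S : Finset V} {y : V} : y ∈ cl N S ↔ ∃ x ∈ S, y ∈ N x := by
  simp [cl]

omit [Fintype V] in
theorem cl_mono {N : V → Finset V} {S T : Finset V} (h : S ⊆ T) : cl N S ⊆ cl N T :=
  Finset.biUnion_subset_biUnion_of_subset_left _ h

omit [Fintype V] [DecidableEq V] in
theorem W_mono {w : V → ℝ} (hw : ∀ v, 0 ≤ w v) {S T : Finset V} (h : S ⊆ T) : W w S ≤ W w T :=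
  Finset.sum_le_sum_of_subset_of_nonneg h fun v _ _ => hw v

omit [Fintype V] [DecidableEq V] in
theorem W_nonneg {w : V → ℝ} (hw : ∀ v, 0 ≤ w v) (S : Finset V) : 0 ≤ W w S :=
  Finset.sum_nonneg fun v _ => hw v

theorem W_eq {w : V → ℝ} (S : Finset V) : W w S = ∑ v, if v ∈ S then w v else 0 := by
  simp [W, Finset.sum_ite_mem]

omit [Fintype V] in
theorem rho_le {N : V → Finset V} {w : V → ℝ} {L S T : Finset V} (hT : T ⊆ L) :
    rho N w L S ≤ W w (L \ T) + W w (cl N T ∩ S) :=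
  Finset.inf'_le (f := fun T => W w (L \ T) + W w (cl N T ∩ S)) (Finset.mem_powerset.2 hT)

omit [Fintype V] in
theorem exists_rho (N : V → Finset V) (w : V → ℝ) (L S : Finset V) :
    ∃ T ⊆ L, rho N w L S = W w (L \ T) + W w (cl N T ∩ S) := by
  obtain ⟨T, hT, h⟩ := Finset.exists_mem_eq_inf' (s := L.powerset)
    ⟨∅, Finset.empty_mem_powerset L⟩ (fun T => W w (L \ T) + W w (cl N T ∩ S))
  exact ⟨T, Finset.mem_powerset.1 hT, h⟩

theorem pw (x : ℝ) (hx : 0 ≤ x) (n1 n2 nT nT' s s' e : Prop) [Decidable n1] [Decidable n2]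
    [Decidable nT] [Decidable nT'] [Decidable s] [Decidable s'] [Decidable e]
    (a0 : s' → s) (a1 : n1 → nT) (a2 : n1 → (e ∨ s') → nT') (a3 : n2 → nT' ∨ nT) :
    (if n1 ∧ (e ∨ s) then x else 0) + (if n2 ∧ s' then x else 0) ≤
      (if nT ∧ s then x else 0) + (if nT' ∧ (e ∨ s') then x else 0) := by
  by_cases h6 : s'
  · have h5 := a0 h6
    by_cases h1 : n1
    · have h3 := a1 h1
      have h4 := a2 h1 (Or.inr h6)
      by_cases h2 : n2 <;> simp [h1, h2, h3, h4, h5, h6, hx]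
    · by_cases h2 : n2
      · rcases a3 h2 with h4 | h3
        · by_cases h3 : nT <;> simp [h1, h2, h3, h4, h5, h6, hx]
        · by_cases h4 : nT' <;> simp [h1, h2, h3, h4, h5, h6, hx]
      · by_cases h3 : nT <;> by_cases h4 : nT' <;> simp [h1, h2, h3, h4, h5, h6, hx]
  · by_cases h5 : s
    · by_cases h1 : n1
      · have h3 := a1 h1
        by_cases h4 : nT' <;> by_cases h7 : e <;> simp [h1, h3, h4, h5, h6, h7, hx]
      · by_cases h3 : nT <;> by_cases h4 : nT' <;> by_cases h7 : e <;>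
          simp [h1, h3, h4, h5, h6, h7, hx]
    · by_cases h7 : e
      · by_cases h1 : n1
        · have h4 := a2 h1 (Or.inl h7)
          simp [h1, h4, h5, h6, h7]
        · by_cases h4 : nT' <;> simp [h1, h4, h5, h6, h7, hx]
      · simp [h5, h6, h7]

theorem rho_step {N : V → Finset V} {w : V → ℝ} (hw : ∀ v, 0 ≤ w v) {L G S S' : Finset V} {y : V}
    (hS : S' ⊆ S) (hG : ∀ x ∈ L, x ∉ G → Disjoint (N x) (insert y S')) :
    rho N w L (insert y S) + rho N w G S' ≤ rho N w L S + rho N w G (insert y S') := by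
  obtain ⟨T, hT, h1⟩ := exists_rho N w L S
  obtain ⟨T', hT', h2⟩ := exists_rho N w G (insert y S')
  have hT1 : T ∩ (T' ∪ (L \ G)) ⊆ L := Finset.inter_subset_left.trans hT
  have hT2 : T' ∪ (T ∩ G) ⊆ G := Finset.union_subset hT' Finset.inter_subset_right
  have e1 := rho_le (N := N) (w := w) (S := insert y S) hT1
  have e2 := rho_le (N := N) (w := w) (S := S') hT2
  have hkey1 : W w (L \ (T ∩ (T' ∪ (L \ G)))) + W w (G \ (T' ∪ (T ∩ G))) ≤
      W w (L \ T) + W w (G \ T') := by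
    simp only [W_eq, ← Finset.sum_add_distrib]
    refine Finset.sum_le_sum fun v _ => ?_
    have hv := hw v
    have a1 : v ∈ T → v ∈ L := fun h => hT h
    have a2 : v ∈ T' → v ∈ G := fun h => hT' h
    simp only [Finset.mem_sdiff, Finset.mem_inter, Finset.mem_union]
    by_cases b1 : v ∈ T <;> by_cases b2 : v ∈ T' <;> by_cases b3 : v ∈ L <;> by_cases b4 : v ∈ G <;>
      simp_all
  have hkey2 : W w (cl N (T ∩ (T' ∪ (L \ G))) ∩ insert y S) + W w (cl N (T' ∪ (T ∩ G)) ∩ S') ≤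
      W w (cl N T ∩ S) + W w (cl N T' ∩ insert y S') := by
    simp only [W_eq, ← Finset.sum_add_distrib]
    refine Finset.sum_le_sum fun v _ => ?_
    have hv := hw v
    have a0 : v ∈ S' → v ∈ S := fun h => hS h
    have a1 : v ∈ cl N (T ∩ (T' ∪ (L \ G))) → v ∈ cl N T := fun h =>
      cl_mono Finset.inter_subset_left h
    have a2 : v ∈ cl N (T ∩ (T' ∪ (L \ G))) → v ∈ insert y S' → v ∈ cl N T' := by
      intro h h'
      obtain ⟨x, hx, hxv⟩ := mem_cl.1 h
      rw [Finset.mem_inter, Finset.mem_union, Finset.mem_sdiff] at hx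
      rcases hx.2 with h3 | h3
      · exact mem_cl.2 ⟨x, h3, hxv⟩
      · exact absurd h' (Finset.disjoint_left.1 (hG x h3.1 h3.2) hxv)
    have a3 : v ∈ cl N (T' ∪ (T ∩ G)) → v ∈ cl N T' ∨ v ∈ cl N T := by
      intro h
      obtain ⟨x, hx, hxv⟩ := mem_cl.1 h
      rw [Finset.mem_union, Finset.mem_inter] at hx
      rcases hx with h3 | h3
      · exact Or.inl (mem_cl.2 ⟨x, h3, hxv⟩)
      · exact Or.inr (mem_cl.2 ⟨x, h3.1, hxv⟩)
    simp only [Finset.mem_inter, Finset.mem_insert] at a2 ⊢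
    exact pw (w v) hv _ _ _ _ _ _ _ a0 a1 a2 a3
  linarith

end Vale.Agent.P038.H434
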