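import Vale.Agent.P038.H434.Layer

/-!
# The key inequality
-/

namespace Vale.Agent.P038.H434

open Finset

variable {V : Type*} [Fintype V] [DecidableEq V]

open Classical in
/-- Measure of a relation. -/
noncomputable def mu (w : V → ℝ) (R : V → V → Prop) : ℝ :=
  ∑ a, ∑ x, if R a x then w a * w x else 0

/-- The gap. -/
def GG (B K : V → Finset V) (a x : V) : Prop := x ∉ B a ∧ a ∉ K x

/-- New vertices in the rows. -/
def GE (N : V → Finset V) (B K : V → Finset V) (a y : V) : Prop :=
  y ∉ cl N (B a) ∧ ∃ x, y ∈ N x ∧ GG B K a x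

/-- New vertices in the columns. -/
def GF (N : V → Finset V) (B K : V → Finset V) (z x : V) : Prop :=
  z ∉ cl N (K x) ∧ ∃ a, z ∈ N a ∧ GG B K a x

/-- New cells in both directions. -/
def H0 (N : V → Finset V) (B K : V → Finset V) (z y : V) : Prop :=
  (∃ x, y ∈ N x ∧ z ∉ cl N (K x)) ∧ ∃ a, z ∈ N a ∧ y ∉ cl N (B a)

section

variable (N : V → Finset V) (B K : V → Finset V)

open Classical in
/-- Row of `GF`. -/
noncomputable def Lr (z : V) : Finset V := univ.filter fun x => GF N B K z x

open Classical in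
/-- Row of the gap. -/
noncomputable def Gr (a : V) : Finset V := univ.filter fun x => GG B K a x

open Classical in
/-- Column of the gap. -/
noncomputable def Gc (x : V) : Finset V := univ.filter fun a => GG B K a x

open Classical in
/-- Union of the complements. -/
noncomputable def Op (z : V) : Finset V := univ.filter fun y => ∃ a, z ∈ N a ∧ y ∉ cl N (B a)

open Classical in
/-- Complement of the row. -/
noncomputable def Oo (a : V) : Finset V := univ.filter fun y => y ∉ cl N (B a)

/-- rank of the row -/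
noncomputable def rr (w : V → ℝ) (z : V) (S : Finset V) : ℝ :=
  rho N w (Lr N B K z) (S ∩ Op N B z)

/-- rank of the gap row -/
noncomputable def r0 (w : V → ℝ) (a : V) (S : Finset V) : ℝ :=
  rho N w (Gr B K a) (S ∩ Oo N B a)

end

variable {N : V → Finset V} {B K : V → Finset V} {w : V → ℝ}

omit [DecidableEq V] in
theorem mem_Gr {a x : V} : x ∈ Gr B K a ↔ GG B K a x := by simp [Gr]
omit [DecidableEq V] in
theorem mem_Gc {a x : V} : a ∈ Gc B K x ↔ GG B K a x := by simp [Gc]
theorem mem_Lr {z x : V} : x ∈ Lr N B K z ↔ GF N B K z x := by simp [Lr]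
theorem mem_Op {z y : V} : y ∈ Op N B z ↔ ∃ a, z ∈ N a ∧ y ∉ cl N (B a) := by simp [Op]
theorem mem_Oo {a y : V} : y ∈ Oo N B a ↔ y ∉ cl N (B a) := by simp [Oo]

omit [Fintype V] in
theorem mem_not_K {z x a : V} (h : z ∉ cl N (K x)) (ha : z ∈ N a) : a ∉ K x := fun h' =>
  h (mem_cl.2 ⟨a, h', ha⟩)

omit [Fintype V] in
theorem mem_not_B {a y x : V} (h : y ∉ cl N (B a)) (hx : y ∈ N x) : x ∉ B a := fun h' =>
  h (mem_cl.2 ⟨x, h', hx⟩)

theorem step_M (hw : ∀ v, 0 ≤ w v) {a z y : V} (S : Finset V) (hz : z ∈ N a)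
    (hy : y ∉ cl N (B a)) :
    rr N B K w z (insert y S) - rr N B K w z S ≤ r0 N B K w a (insert y S) - r0 N B K w a S := by
  have hyO : y ∈ Oo N B a := mem_Oo.2 hy
  have hyP : y ∈ Op N B z := mem_Op.2 ⟨a, hz, hy⟩
  have hOP : Oo N B a ⊆ Op N B z := fun u hu => mem_Op.2 ⟨a, hz, mem_Oo.1 hu⟩
  have e1 : insert y S ∩ Op N B z = insert y (S ∩ Op N B z) := Finset.insert_inter_of_mem hyP
  have e2 : insert y S ∩ Oo N B a = insert y (S ∩ Oo N B a) := Finset.insert_inter_of_mem hyO
  have h := rho_step (N := N) hw (L := Lr N B K z) (G := Gr B K a) (S := S ∩ Op N B z)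
    (S' := S ∩ Oo N B a) (y := y) (Finset.inter_subset_inter_left hOP) (by
      intro x hx hxG
      have h1 := (mem_Lr.1 hx).1
      have h2 : a ∉ K x := mem_not_K h1 hz
      have h3 : x ∈ B a := by
        by_contra h4
        exact hxG (mem_Gr.2 ⟨h4, h2⟩)
      rw [Finset.disjoint_left]
      intro u hu hu'
      have h5 : u ∈ Oo N B a := by
        rw [Finset.mem_insert] at hu'
        rcases hu' with h6 | h6
        · exact h6 ▸ hyO
        · exact (Finset.mem_inter.1 h6).2
      exact mem_Oo.1 h5 (mem_cl.2 ⟨x, h3, hu⟩))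
  unfold rr r0
  rw [e1, e2]
  linarith

open Classical in
theorem f_nonneg (hw : ∀ v, 0 ≤ w v) (z y : V) (S : Finset V) :
    0 ≤ (if H0 N B K z y then w y else 0) - (rr N B K w z (insert y S) - rr N B K w z S) := by
  by_cases hy : y ∈ Op N B z
  · have e1 : insert y S ∩ Op N B z = insert y (S ∩ Op N B z) := Finset.insert_inter_of_mem hy
    have h := rho_insert_le (N := N) hw (L := Lr N B K z) (S := S ∩ Op N B z) (y := y)
    have h2 : (if y ∈ cl N (Lr N B K z) then w y else 0) ≤ (if H0 N B K z y then w y else 0) := by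
      by_cases h3 : y ∈ cl N (Lr N B K z)
      · have h4 : H0 N B K z y := by
          obtain ⟨x, hx, hxy⟩ := mem_cl.1 h3
          exact ⟨⟨x, hxy, (mem_Lr.1 hx).1⟩, mem_Op.1 hy⟩
        rw [if_pos h3, if_pos h4]
      · rw [if_neg h3]
        split_ifs
        · exact hw y
        · exact le_rfl
    unfold rr
    rw [e1]
    linarith
  · have e1 : insert y S ∩ Op N B z = S ∩ Op N B z := Finset.insert_inter_of_notMem hy
    unfold rr
    rw [e1]
    split_ifs
    · linarith [hw y]
    · linarith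

open Classical in
theorem g_nonneg (hw : ∀ v, 0 ≤ w v) (a y : V) (S : Finset V) :
    0 ≤ (if GE N B K a y then w y else 0) - (r0 N B K w a (insert y S) - r0 N B K w a S) := by
  by_cases hy : y ∈ Oo N B a
  · have e1 : insert y S ∩ Oo N B a = insert y (S ∩ Oo N B a) := Finset.insert_inter_of_mem hy
    have h := rho_insert_le (N := N) hw (L := Gr B K a) (S := S ∩ Oo N B a) (y := y)
    have h2 : (if y ∈ cl N (Gr B K a) then w y else 0) ≤ (if GE N B K a y then w y else 0) := by
      by_cases h3 : y ∈ cl N (Gr B K a)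
      · have h4 : GE N B K a y := by
          obtain ⟨x, hx, hxy⟩ := mem_cl.1 h3
          exact ⟨mem_Oo.1 hy, ⟨x, hxy, mem_Gr.1 hx⟩⟩
        rw [if_pos h3, if_pos h4]
      · rw [if_neg h3]
        split_ifs
        · exact hw y
        · exact le_rfl
    unfold r0
    rw [e1]
    linarith
  · have e1 : insert y S ∩ Oo N B a = S ∩ Oo N B a := Finset.insert_inter_of_notMem hy
    unfold r0
    rw [e1]
    split_ifs
    · linarith [hw y]
    · linarith

/-- Column Hall. -/
theorem col_hall (hw : ∀ v, 0 ≤ w v)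
    (hC : ∀ x, ∀ S : Finset V, (∀ a ∈ S, GG B K a x) → W w S ≤ W w (cl N S \ cl N (K x)))
    (y : V) (S : Finset V) (hS : ∀ a ∈ S, GE N B K a y) (R : Finset V)
    (hR : ∀ a ∈ S, ∀ z ∈ N a, H0 N B K z y → z ∈ R) : W w S ≤ W w R := by
  classical
  set I : Finset V := univ.filter fun x => y ∈ N x with hI
  have hmI : ∀ x, x ∈ I ↔ y ∈ N x := fun x => by simp [hI]
  have h := hall_chain (N := N) hw I K (Gc B K) (by
    intro x _ T hT
    exact hC x T fun a ha => mem_Gc.1 (hT ha)) S (by
    intro x hx a ha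
    have h1 : x ∉ B a := mem_not_B (hS a ha).1 ((hmI x).1 hx)
    rw [Finset.mem_union, mem_Gc]
    by_cases h2 : a ∈ K x
    · exact Or.inl h2
    · exact Or.inr ⟨h1, h2⟩)
  have e1 : (S.filter fun a => ∃ x ∈ I, a ∉ K x) = S := by
    apply Finset.filter_true_of_mem
    intro a ha
    obtain ⟨_, x, hx, hG⟩ := hS a ha
    exact ⟨x, (hmI x).2 hx, hG.2⟩
  rw [e1] at h
  refine h.trans (W_mono hw ?_)
  intro z hz
  rw [Finset.mem_filter] at hz
  obtain ⟨hz1, x, hx, hzx⟩ := hz
  obtain ⟨a, ha, hza⟩ := mem_cl.1 hz1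
  exact hR a ha z hza ⟨⟨x, (hmI x).1 hx, hzx⟩, a, hza, (hS a ha).1⟩

/-- Row Hall. -/
theorem rr_univ (hw : ∀ v, 0 ≤ w v)
    (hR : ∀ a, ∀ T : Finset V, (∀ x ∈ T, GG B K a x) → W w T ≤ W w (cl N T \ cl N (B a)))
    (z : V) : rr N B K w z univ = W w (Lr N B K z) := by
  classical
  unfold rr
  apply rho_full
  intro T hT
  set I : Finset V := univ.filter fun a => z ∈ N a with hI
  have hmI : ∀ a, a ∈ I ↔ z ∈ N a := fun a => by simp [hI]
  have h := hall_chain (N := N) hw I B (Gr B K) (by
    intro a _ T hT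
    exact hR a T fun x hx => mem_Gr.1 (hT hx)) T (by
    intro a ha x hx
    have h1 : a ∉ K x := mem_not_K (mem_Lr.1 (hT hx)).1 ((hmI a).1 ha)
    rw [Finset.mem_union, mem_Gr]
    by_cases h2 : x ∈ B a
    · exact Or.inl h2
    · exact Or.inr ⟨h2, h1⟩)
  have e1 : (T.filter fun x => ∃ a ∈ I, x ∉ B a) = T := by
    apply Finset.filter_true_of_mem
    intro x hx
    obtain ⟨_, a, ha, hG⟩ := mem_Lr.1 (hT hx)
    exact ⟨a, (hmI a).2 ha, hG.1⟩
  rw [e1] at h
  refine h.trans (W_mono hw ?_)
  intro y hy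
  rw [Finset.mem_filter] at hy
  obtain ⟨hy1, a, ha, hya⟩ := hy
  rw [Finset.mem_inter]
  refine ⟨hy1, ?_⟩
  rw [Finset.mem_inter]
  exact ⟨Finset.mem_univ _, mem_Op.2 ⟨a, (hmI a).1 ha, hya⟩⟩

theorem r0_univ
    (hR : ∀ a, ∀ T : Finset V, (∀ x ∈ T, GG B K a x) → W w T ≤ W w (cl N T \ cl N (B a)))
    (a : V) : r0 N B K w a univ = W w (Gr B K a) := by
  unfold r0
  apply rho_full
  intro T hT
  have h := hR a T fun x hx => mem_Gr.1 (hT hx)
  have e : cl N T \ cl N (B a) = cl N T ∩ (univ ∩ Oo N B a) := by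
    ext y
    simp [mem_Oo]
  rw [← e]
  exact h

open Classical in
theorem step_sum (hw : ∀ v, 0 ≤ w v)
    (hC : ∀ x, ∀ S : Finset V, (∀ a ∈ S, GG B K a x) → W w S ≤ W w (cl N S \ cl N (K x)))
    (y : V) (S : Finset V) :
    ∑ a, w a * ((if GE N B K a y then w y else 0) -
        (r0 N B K w a (insert y S) - r0 N B K w a S)) ≤
      ∑ z, w z * ((if H0 N B K z y then w y else 0) -
        (rr N B K w z (insert y S) - rr N B K w z S)) := by
  apply layer hw (fun z => f_nonneg hw z y S) (fun a => g_nonneg hw a y S)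
  intro t ht
  have hmono : ∀ a, r0 N B K w a S ≤ r0 N B K w a (insert y S) := fun a =>
    rho_mono hw (Finset.inter_subset_inter_right (Finset.subset_insert y S))
  have hGE : ∀ a, t < (if GE N B K a y then w y else 0) -
        (r0 N B K w a (insert y S) - r0 N B K w a S) → GE N B K a y := by
    intro a ha
    by_contra hc
    rw [if_neg hc] at ha
    linarith [hmono a]
  apply col_hall hw hC y
  · intro a ha
    exact hGE a (Finset.mem_filter.1 ha).2
  · intro a ha z hz hH
    rw [Finset.mem_filter] at ha ⊢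
    refine ⟨Finset.mem_univ _, ?_⟩
    have h1 := hGE a ha.2
    have h2 := step_M (K := K) hw S hz h1.1
    have h3 := ha.2
    rw [if_pos h1] at h3
    rw [if_pos hH]
    linarith

open Classical in
theorem key_aux (hw : ∀ v, 0 ≤ w v)
    (hC : ∀ x, ∀ S : Finset V, (∀ a ∈ S, GG B K a x) → W w S ≤ W w (cl N S \ cl N (K x)))
    (S : Finset V) :
    ∑ a, w a * ((∑ y ∈ S, if GE N B K a y then w y else 0) - r0 N B K w a S) ≤
      ∑ z, w z * ((∑ y ∈ S, if H0 N B K z y then w y else 0) - rr N B K w z S) := by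
  induction S using Finset.induction_on with
  | empty =>
    have h1 : ∀ a, r0 N B K w a ∅ = 0 := by
      intro a
      unfold r0
      rw [Finset.empty_inter]
      exact rho_empty hw
    have h2 : ∀ a, rr N B K w a ∅ = 0 := by
      intro a
      unfold rr
      rw [Finset.empty_inter]
      exact rho_empty hw
    simp [h1, h2]
  | insert y S hy ih =>
    have h := step_sum hw hC y S
    have e1 : ∑ a, w a * ((∑ y ∈ insert y S, if GE N B K a y then w y else 0) -
        r0 N B K w a (insert y S)) =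
        ∑ a, w a * ((∑ y ∈ S, if GE N B K a y then w y else 0) - r0 N B K w a S) +
        ∑ a, w a * ((if GE N B K a y then w y else 0) -
        (r0 N B K w a (insert y S) - r0 N B K w a S)) := by
      rw [← Finset.sum_add_distrib]
      refine Finset.sum_congr rfl fun a _ => ?_
      rw [Finset.sum_insert hy]
      ring
    have e2 : ∑ z, w z * ((∑ y ∈ insert y S, if H0 N B K z y then w y else 0) -
        rr N B K w z (insert y S)) =
        ∑ z, w z * ((∑ y ∈ S, if H0 N B K z y then w y else 0) - rr N B K w z S) +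
        ∑ z, w z * ((if H0 N B K z y then w y else 0) -
        (rr N B K w z (insert y S) - rr N B K w z S)) := by
      rw [← Finset.sum_add_distrib]
      refine Finset.sum_congr rfl fun a _ => ?_
      rw [Finset.sum_insert hy]
      ring
    rw [e1, e2]
    linarith

theorem key (hw : ∀ v, 0 ≤ w v)
    (hR : ∀ a, ∀ T : Finset V, (∀ x ∈ T, GG B K a x) → W w T ≤ W w (cl N T \ cl N (B a)))
    (hC : ∀ x, ∀ S : Finset V, (∀ a ∈ S, GG B K a x) → W w S ≤ W w (cl N S \ cl N (K x))) :
    mu w (GE N B K) + mu w (GF N B K) ≤ mu w (H0 N B K) + mu w (GG B K) := by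
  classical
  have h := key_aux hw hC univ
  have a1 : mu w (GE N B K) = ∑ a, w a * (∑ y, if GE N B K a y then w y else 0) := by
    unfold mu
    refine Finset.sum_congr rfl fun a _ => ?_
    rw [Finset.mul_sum]
    refine Finset.sum_congr rfl fun y _ => ?_
    split_ifs <;> simp
  have a2 : mu w (H0 N B K) = ∑ a, w a * (∑ y, if H0 N B K a y then w y else 0) := by
    unfold mu
    refine Finset.sum_congr rfl fun a _ => ?_
    rw [Finset.mul_sum]
    refine Finset.sum_congr rfl fun y _ => ?_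
    split_ifs <;> simp
  have a3 : mu w (GG B K) = ∑ a, w a * r0 N B K w a univ := by
    unfold mu
    refine Finset.sum_congr rfl fun a _ => ?_
    rw [r0_univ hR a, W_eq, Finset.mul_sum]
    refine Finset.sum_congr rfl fun y _ => ?_
    by_cases hq : GG B K a y
    · rw [if_pos hq, if_pos (mem_Gr.2 hq)]
    · rw [if_neg hq, if_neg fun h' => hq (mem_Gr.1 h'), mul_zero]
  have a4 : mu w (GF N B K) = ∑ a, w a * rr N B K w a univ := by
    unfold mu
    refine Finset.sum_congr rfl fun a _ => ?_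
    rw [rr_univ hw hR a, W_eq, Finset.mul_sum]
    refine Finset.sum_congr rfl fun y _ => ?_
    by_cases hq : GF N B K a y
    · rw [if_pos hq, if_pos (mem_Lr.2 hq)]
    · rw [if_neg hq, if_neg fun h' => hq (mem_Lr.1 h'), mul_zero]
  rw [a1, a2, a3, a4]
  simp only [mul_sub, Finset.sum_sub_distrib] at h
  linarith

end Vale.Agent.P038.H434
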