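import Vale.Agent.P038.H434.Rho

/-!
# Layer cake
-/

namespace Vale.Agent.P038.H434

open Finset

variable {V : Type*} [Fintype V] [DecidableEq V]

theorem layer_aux {w : V → ℝ} (hw : ∀ v, 0 ≤ w v) (n : ℕ) : ∀ (f g : V → ℝ),
    (∀ v, 0 ≤ f v) → (∀ v, 0 ≤ g v) → (univ.filter fun a => 0 < g a).card = n →
    (∀ t : ℝ, 0 ≤ t → W w (univ.filter fun a => t < g a) ≤ W w (univ.filter fun a => t < f a)) →
    ∑ a, w a * g a ≤ ∑ a, w a * f a := by
  induction n using Nat.strong_induction_on with
  | _ n ih =>
    intro f g hf hg hn h
    set P := univ.filter fun a => 0 < g a with hP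
    by_cases hPe : P = ∅
    · have : ∀ a, g a = 0 := by
        intro a
        have h1 : a ∉ P := by simp [hPe]
        rw [hP, Finset.mem_filter] at h1
        have h2 : ¬ 0 < g a := fun h3 => h1 ⟨Finset.mem_univ _, h3⟩
        exact le_antisymm (not_lt.1 h2) (hg a)
      have h0 : ∑ a, w a * g a = 0 := Finset.sum_eq_zero fun a _ => by rw [this a, mul_zero]
      rw [h0]
      exact Finset.sum_nonneg fun a _ => mul_nonneg (hw a) (hf a)
    · have hPn : P.Nonempty := Finset.nonempty_iff_ne_empty.2 hPe
      obtain ⟨p, hp, hpm⟩ := Finset.exists_min_image P g hPn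
      set m := g p with hm
      have hm0 : 0 < m := (Finset.mem_filter.1 hp).2
      -- W P ≤ W {f ≥ m}
      have hkey : W w P ≤ W w (univ.filter fun a => m ≤ f a) := by
        by_cases hQ : (univ.filter fun a => f a < m).Nonempty
        · obtain ⟨q, hq, hqm⟩ := Finset.exists_max_image _ f hQ
          have hq' : f q < m := (Finset.mem_filter.1 hq).2
          have h1 := h (f q) (hf q)
          have h2 : P ⊆ univ.filter fun a => f q < g a := by
            intro a ha
            exact Finset.mem_filter.2 ⟨Finset.mem_univ _, lt_of_lt_of_le hq' (hpm a ha)⟩
          have h3 : (univ.filter fun a => f q < f a) ⊆ univ.filter fun a => m ≤ f a := by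
            intro a ha
            rw [Finset.mem_filter] at ha ⊢
            refine ⟨Finset.mem_univ _, ?_⟩
            by_contra h4
            have := hqm a (Finset.mem_filter.2 ⟨Finset.mem_univ _, not_le.1 h4⟩)
            linarith [ha.2]
          exact (W_mono hw h2).trans (h1.trans (W_mono hw h3))
        · have h1 := h 0 le_rfl
          refine h1.trans (W_mono hw ?_)
          intro a _
          rw [Finset.mem_filter]
          refine ⟨Finset.mem_univ _, ?_⟩
          by_contra h4
          exact hQ ⟨a, Finset.mem_filter.2 ⟨Finset.mem_univ _, not_le.1 h4⟩⟩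
      set f' : V → ℝ := fun a => max (f a - m) 0 with hf'
      set g' : V → ℝ := fun a => max (g a - m) 0 with hg'
      have hlt : (univ.filter fun a => 0 < g' a).card < n := by
        rw [← hn]
        apply Finset.card_lt_card
        rw [Finset.ssubset_iff_of_subset]
        · refine ⟨p, hp, ?_⟩
          simp [hg', ← hm]
        · intro a ha
          rw [Finset.mem_filter] at ha
          rw [hP, Finset.mem_filter]
          refine ⟨Finset.mem_univ _, ?_⟩
          have h1 : 0 < max (g a - m) 0 := ha.2
          rcases lt_max_iff.1 h1 with h2 | h2
          · linarith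
          · exact absurd h2 (lt_irrefl _)
      have hih := ih _ hlt f' g' (fun a => le_max_right _ _) (fun a => le_max_right _ _) rfl (by
        intro t ht
        have e1 : (univ.filter fun a => t < g' a) = univ.filter fun a => t + m < g a := by
          ext a
          simp only [Finset.mem_filter, Finset.mem_univ, true_and, hg', lt_max_iff]
          constructor
          · rintro (h1 | h1)
            · linarith
            · linarith
          · intro h1
            exact Or.inl (by linarith)
        have e2 : (univ.filter fun a => t < f' a) = univ.filter fun a => t + m < f a := by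
          ext a
          simp only [Finset.mem_filter, Finset.mem_univ, true_and, hf', lt_max_iff]
          constructor
          · rintro (h1 | h1)
            · linarith
            · linarith
          · intro h1
            exact Or.inl (by linarith)
        rw [e1, e2]
        exact h (t + m) (by linarith))
      have s1 : ∑ a, w a * g a = ∑ a, w a * g' a + m * W w P := by
        rw [W_eq, Finset.mul_sum, ← Finset.sum_add_distrib]
        refine Finset.sum_congr rfl fun a _ => ?_
        by_cases ha : a ∈ P
        · have h1 := hpm a ha
          simp only [if_pos ha, hg']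
          rw [max_eq_left (by linarith)]
          ring
        · have h1 : g a = 0 := by
            rw [hP, Finset.mem_filter] at ha
            have h2 : ¬ 0 < g a := fun h3 => ha ⟨Finset.mem_univ _, h3⟩
            exact le_antisymm (not_lt.1 h2) (hg a)
          simp only [if_neg ha, hg', h1]
          rw [max_eq_right (by linarith)]
          ring
      have s2 : ∑ a, w a * f' a + m * W w (univ.filter fun a => m ≤ f a) ≤ ∑ a, w a * f a := by
        rw [W_eq, Finset.mul_sum, ← Finset.sum_add_distrib]
        refine Finset.sum_le_sum fun a _ => ?_
        by_cases ha : m ≤ f a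
        · have h1 : a ∈ univ.filter fun a => m ≤ f a := Finset.mem_filter.2 ⟨Finset.mem_univ _, ha⟩
          simp only [if_pos h1, hf']
          rw [max_eq_left (by linarith)]
          exact le_of_eq (by ring)
        · have h1 : a ∉ univ.filter fun a => m ≤ f a := by
            rw [Finset.mem_filter]
            exact fun h2 => ha h2.2
          simp only [if_neg h1, hf']
          rw [max_eq_right (by linarith [not_le.1 ha])]
          have := mul_nonneg (hw a) (hf a)
          linarith
      have s3 := mul_le_mul_of_nonneg_left hkey hm0.le
      linarith

theorem layer {w f g : V → ℝ} (hw : ∀ v, 0 ≤ w v) (hf : ∀ v, 0 ≤ f v) (hg : ∀ v, 0 ≤ g v)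
    (h : ∀ t : ℝ, 0 ≤ t → W w (univ.filter fun a => t < g a) ≤ W w (univ.filter fun a => t < f a)) :
    ∑ a, w a * g a ≤ ∑ a, w a * f a :=
  layer_aux hw _ f g hf hg rfl h

end Vale.Agent.P038.H434
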