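import Vale.Agent.P038.H434.Base

/-!
# Rank lemmas, the Hall chain
-/

namespace Vale.Agent.P038.H434

open Finset

variable {V : Type*} [Fintype V] [DecidableEq V]

omit [Fintype V] in
theorem rho_mono {N : V → Finset V} {w : V → ℝ} (hw : ∀ v, 0 ≤ w v) {L S S' : Finset V}
    (h : S ⊆ S') : rho N w L S ≤ rho N w L S' := by
  obtain ⟨T, hT, h1⟩ := exists_rho N w L S'
  have h2 := rho_le (N := N) (w := w) (S := S) hT
  have h3 : W w (cl N T ∩ S) ≤ W w (cl N T ∩ S') :=
    W_mono hw (Finset.inter_subset_inter_left h)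
  linarith

omit [Fintype V] in
theorem rho_insert_le {N : V → Finset V} {w : V → ℝ} (hw : ∀ v, 0 ≤ w v) {L S : Finset V} {y : V} :
    rho N w L (insert y S) ≤ rho N w L S + (if y ∈ cl N L then w y else 0) := by
  obtain ⟨T, hT, h1⟩ := exists_rho N w L S
  have h2 := rho_le (N := N) (w := w) (S := insert y S) hT
  by_cases hy : y ∈ cl N L
  · rw [if_pos hy]
    have h3 : W w (cl N T ∩ insert y S) ≤ W w (cl N T ∩ S) + w y := by
      have : cl N T ∩ insert y S ⊆ insert y (cl N T ∩ S) := by
        intro v hv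
        simp only [Finset.mem_inter, Finset.mem_insert] at hv ⊢
        tauto
      refine (W_mono hw this).trans ?_
      unfold W
      by_cases h4 : y ∈ cl N T ∩ S
      · rw [Finset.insert_eq_of_mem h4]
        have := hw y
        linarith
      · rw [Finset.sum_insert h4]
        linarith
    linarith
  · rw [if_neg hy]
    have h3 : cl N T ∩ insert y S = cl N T ∩ S := by
      ext v
      simp only [Finset.mem_inter, Finset.mem_insert]
      constructor
      · rintro ⟨h4, h5 | h5⟩
        · exact absurd (cl_mono hT (h5 ▸ h4)) hy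
        · exact ⟨h4, h5⟩
      · rintro ⟨h4, h5⟩
        exact ⟨h4, Or.inr h5⟩
    rw [h3] at h2
    linarith

omit [Fintype V] in
theorem W_sdiff {w : V → ℝ} {S T : Finset V} (h : T ⊆ S) : W w (S \ T) = W w S - W w T := by
  have := Finset.sum_sdiff (f := w) h
  unfold W
  linarith

omit [Fintype V] in
theorem rho_full {N : V → Finset V} {w : V → ℝ} {L S : Finset V}
    (h : ∀ T ⊆ L, W w T ≤ W w (cl N T ∩ S)) : rho N w L S = W w L := by
  apply le_antisymm
  · have := rho_le (N := N) (w := w) (S := S) (Finset.empty_subset L)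
    simpa [cl, W] using this
  · obtain ⟨T, hT, h1⟩ := exists_rho N w L S
    have h2 := h T hT
    rw [h1, W_sdiff hT]
    linarith

omit [Fintype V] in
theorem rho_empty {N : V → Finset V} {w : V → ℝ} (hw : ∀ v, 0 ≤ w v) {L : Finset V} :
    rho N w L ∅ = 0 := by
  apply le_antisymm
  · have := rho_le (N := N) (w := w) (S := ∅) (Finset.Subset.refl L)
    simpa [cl, W] using this
  · obtain ⟨T, hT, h1⟩ := exists_rho N w L ∅
    rw [h1]
    exact add_nonneg (W_nonneg hw _) (W_nonneg hw _)

omit [Fintype V] in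
theorem hall_chain {N : V → Finset V} {w : V → ℝ} (hw : ∀ v, 0 ≤ w v) (I : Finset V)
    (B G : V → Finset V) :
    (∀ a ∈ I, ∀ T ⊆ G a, W w T ≤ W w (cl N T \ cl N (B a))) → ∀ (L : Finset V),
    (∀ a ∈ I, L ⊆ B a ∪ G a) →
    W w (L.filter fun x => ∃ a ∈ I, x ∉ B a) ≤
      W w ((cl N L).filter fun y => ∃ a ∈ I, y ∉ cl N (B a)) := by
  induction I using Finset.induction_on with
  | empty =>
    intro _ L _
    simp [W]
  | insert a I ha ih =>
    intro hR L hL
    have ih' := ih (fun b hb => hR b (Finset.mem_insert_of_mem hb)) L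
      (fun b hb => hL b (Finset.mem_insert_of_mem hb))
    set T := L.filter fun x => (∀ b ∈ I, x ∈ B b) ∧ x ∉ B a with hT
    have hTG : T ⊆ G a := by
      intro x hx
      rw [hT, Finset.mem_filter] at hx
      have := hL a (Finset.mem_insert_self a I) hx.1
      rw [Finset.mem_union] at this
      exact this.resolve_left hx.2.2
    have h1 := hR a (Finset.mem_insert_self a I) T hTG
    have e1 : (L.filter fun x => ∃ b ∈ insert a I, x ∉ B b) =
        (L.filter fun x => ∃ b ∈ I, x ∉ B b) ∪ T := by
      ext x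
      simp only [hT, Finset.mem_filter, Finset.mem_union, Finset.mem_insert, exists_eq_or_imp]
      by_cases h : ∃ b ∈ I, x ∉ B b
      · simp [h]
      · have h' : ∀ b ∈ I, x ∈ B b := by
          intro b hb
          by_contra hc
          exact h ⟨b, hb, hc⟩
        simp only [h, or_false, and_false, false_or]
        tauto
    have d1 : Disjoint (L.filter fun x => ∃ b ∈ I, x ∉ B b) T := by
      rw [Finset.disjoint_left]
      intro x hx hx'
      rw [Finset.mem_filter] at hx hx'
      obtain ⟨b, hb, hb'⟩ := hx.2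
      exact hb' (hx'.2.1 b hb)
    have e2 : ((cl N L).filter fun y => ∃ b ∈ I, y ∉ cl N (B b)) ∪ (cl N T \ cl N (B a)) ⊆
        (cl N L).filter fun y => ∃ b ∈ insert a I, y ∉ cl N (B b) := by
      intro y hy
      rw [Finset.mem_union] at hy
      rcases hy with hy | hy
      · rw [Finset.mem_filter] at hy ⊢
        obtain ⟨b, hb, hb'⟩ := hy.2
        exact ⟨hy.1, b, Finset.mem_insert_of_mem hb, hb'⟩
      · rw [Finset.mem_sdiff] at hy
        rw [Finset.mem_filter]
        exact ⟨cl_mono (Finset.filter_subset _ _) hy.1, a, Finset.mem_insert_self a I, hy.2⟩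
    have d2 : Disjoint ((cl N L).filter fun y => ∃ b ∈ I, y ∉ cl N (B b))
        (cl N T \ cl N (B a)) := by
      rw [Finset.disjoint_left]
      intro y hy hy'
      rw [Finset.mem_filter] at hy
      rw [Finset.mem_sdiff] at hy'
      obtain ⟨b, hb, hb'⟩ := hy.2
      obtain ⟨x, hx, hxy⟩ := mem_cl.1 hy'.1
      rw [hT, Finset.mem_filter] at hx
      exact hb' (mem_cl.2 ⟨x, hx.2.1 b hb, hxy⟩)
    rw [e1]
    refine le_trans ?_ (W_mono hw e2)
    unfold W at *
    rw [Finset.sum_union d1, Finset.sum_union d2]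
    linarith

end Vale.Agent.P038.H434
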